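import Vale.Agent.P088.R2.H354.T.Ch
import Vale.Agent.P088.R2.H354.E.Cong
import Vale.Agent.P088.R2.H222.PkR
import Vale.Agent.P088.R2.H820.T.Fl

/-!
# P088, stage 3, zone T: window 2 (the reverse pass)

There the data coincide with the flat ones, the transfer is exact.
-/

open MeasureTheory Set Filter
open scoped ContDiff Topology Matrix

noncomputable section

namespace Vale.Agent.P088.R2.H230.T

open Vale.Agent.P088.LR Vale.Agent.P088.HY Vale.Agent.P088.R2.H961.GW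
open Vale.Agent.P088.R2.H31.EP
open Vale.Agent.P088.R2.H354.T Vale.Agent.P088.R2.H354.E
open Vale.Agent.P088.R2.H509.TG
open Vale.Agent.P088.R2.H464.Cu (mid dif rq)
open Vale.Agent.P088.R2.H820.W (chf Qc ZX ZY)
open Vale.Agent.P088.R2.H644.Ch (fx fy)
open Vale.Agent.P088.R2.H551.E (Zone)

variable {n : ℕ} {q : Cst} {d : Pk n} {z : VV n} {m₁ m₂ : ℝ} {T χ : VV n → ℝ}

/-- The smoothness of the weight. -/
lemma W_sm (h : PkOk q d) (hL : LitSm q d) : ContDiff ℝ ∞ (d.W q) :=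
  WT_smooth h.ok h.Θs h.ret.sm h.lev.sm hL.g

/-- The region of window 2 is in the region of the reverse pass. -/
lemma in_UR (hq : GT n q) (hw : Wn q d m₁ m₂)
    (h1 : qq z < 4 * bq q) (h2 : m₂ - 1 ≤ d.u0 z) (h3 : d.u0 z ≤ m₂ + b2 q + 1) :
    z ∈ H222.UR q d (2 * p₃ q) := by
  have hR := hq.wc.R
  have hR0 := hq.gc.inf.R0
  have g1 := hw.b0
  have g2 := hw.b1
  have eh : d.uth q = 2 * d.l₀ q + 22 / 10 * q.R := rfl
  have ea : d.uta q = 2 * d.l₀ q + 45 / 10 * q.R := rfl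
  have eu : d.u0 z = d.l z.1 + d.l z.2 := rfl
  rw [eu] at h2 h3
  refine ⟨?_, ?_, ?_⟩
  · have e1 : (2 * p₃ q) ^ 2 = 4 * bq q := by rw [bq_p₃]; ring
    rw [e1]
    exact h1
  · linarith
  · linarith

/-- On the region of the reverse pass the data are flat. -/
lemma eqAt (hn : 1 ≤ n) (hq : GT n q) (ht : H222.TR n (2 * p₃ q) q) (h : PkOk q d)
    (hz : z ∈ H222.UR q d (2 * p₃ q)) :
    EqAt d.s₁ d.s₂ (fun _ => 0) (fun _ => 0) (d.W q) (d.W0 q) z := by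
  have hp := p₃_ge hq.gc.rad
  obtain ⟨hO, H⟩ := H222.UR_eq hn h (by linarith : 0 ≤ 2 * p₃ q) ht
  have hN := hO.mem_nhds hz
  have c1 : Tendsto (fun x : V n => ((x, z.2) : VV n)) (𝓝 z.1) (𝓝 z) :=
    (Continuous.prodMk_left z.2).tendsto' _ _ rfl
  have c2 : Tendsto (fun y : V n => ((z.1, y) : VV n)) (𝓝 z.2) (𝓝 z) :=
    (Continuous.prodMk_right z.1).tendsto' _ _ rfl
  refine ⟨?_, ?_, Eventually.of_forall fun _ => rfl, Eventually.of_forall fun _ => rfl, ?_⟩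
  · filter_upwards [c1.eventually hN] with x hx i j
    have := (H _ hx).1.1
    simp only at this
    rw [this]
  · filter_upwards [c2.eventually hN] with y hy i j
    have := (H _ hy).2.1.2
    simp only at this
    rw [this]
  · filter_upwards [hN] with w hw
    obtain ⟨-, -, -, -, -, -, -, -, -, -, e⟩ := H w hw
    rw [e]
    rfl

/-- In window 2 the cut-off is the flat one. -/
theorem wχ2_eq (hn : 1 ≤ n) (hq : GT n q) (ht : H222.TR n (2 * p₃ q) q) (h : PkOk q d)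
    (hT : Tu q d T χ) (hw : Wn q d m₁ m₂) :
    wχ d χ (b2 q) m₂ = c0f q (b2 q) d.l m₂ T := by
  have hp := p₃_ge hq.gc.rad
  obtain ⟨-, H⟩ := H222.UR_eq hn h (by linarith : 0 ≤ 2 * p₃ q) ht
  have eh : d.uth q = 2 * d.l₀ q + 22 / 10 * q.R := rfl
  have ea : d.uta q = 2 * d.l₀ q + 45 / 10 * q.R := rfl
  have hR0 := hq.gc.inf.R0
  have g2 := hw.b1
  have hb := bq_pos hq.gc.rad
  have hpb := p2b hq.gc.rad
  have h12 := p12 hq.gc.rad
  funext z
  rw [wχ_eq hq h hT (fun u _ hu => by linarith) hw.w2.hi z]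
  have ec : c0f q (b2 q) d.l m₂ T z = F1 q (qq z) * F2 (T z) * F3 (b2 q) (d.u0 z - m₂) := by
    unfold c0f
    rw [chf_val]
    have : d.l z.1 + d.l z.2 = d.u0 z := rfl
    rw [this]
    ring
  rw [ec]
  by_cases h3 : F3 (b2 q) (d.u0 z - m₂) = 0
  · rw [h3]; ring
  obtain ⟨u1, u2⟩ := F3_supp h3
  by_cases h4 : qq z < 4 * bq q
  · have hU := in_UR hq hw h4 (by linarith) (by linarith)
    obtain ⟨-, -, -, -, -, e, -⟩ := H z hU
    have e' : d.r2 z = qq z := e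
    rw [e']
  · have f1 : F1 q (qq z) = 0 := by
      by_contra hc
      have := (F1_supp hq.c0 h12 hc).2
      linarith
    have f2 : F1 q (d.r2 z) = 0 := by
      by_contra hc
      obtain ⟨a1, a2⟩ := F1_supp hq.c0 h12 hc
      have := (qq_bd hq h a2 a1).2.1
      rw [bq_p₃] at h4
      have h5 : 0 < p₃ q ^ 2 := by positivity
      linarith
    rw [f1, f2]

/-- The transfer of window 2. -/
theorem win2 (hn : 1 ≤ n) (hq : GT n q) (ht : H222.TR n (2 * p₃ q) q) (h : PkOk q d)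
    (hL : LitSm q d) (hT : Tu q d T χ) (hw : Wn q d m₁ m₂) {k : ℝ} (k0 : 0 ≤ k) (k4 : k ≤ 4)
    {κ ζ₁ ζ₂ w₁ w₂ κ' ζ₁' ζ₂' w₁' w₂' : ℝ}
    (zone : Zone (fx n) (fy n) univ (fun _ => 1) (fun _ => 0) (fun _ => 0) (d.W0 q)
      (c0f q (b2 q) d.l m₂ T) (Qc (c0f q (b2 q) d.l m₂ T) κ ζ₁ ζ₂ w₁ w₂)
      (Qc (ps q (b2 q) k d.l m₂ T) κ' ζ₁' ζ₂' w₁' w₂')) :
    d.Zone q (wχ d χ (b2 q) m₂) (Qc (wχ d χ (b2 q) m₂) κ ζ₁ ζ₂ w₁ w₂)
      (Qc (ps q (b2 q) k d.l m₂ T) κ' ζ₁' ζ₂' w₁' w₂') := by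
  rw [wχ2_eq hn hq ht h hT hw]
  have hb := bq_pos hq.gc.rad
  have hc := hq.c0
  refine zone_eq isOpen_univ contDiffOn_const contDiffOn_const (W_sm h hL).contDiffOn
    hL.W0.contDiffOn (fun z _ => ?_) zone
  by_cases hz : z ∈ Rk q (b2 q) k d.l m₂ T
  · left
    obtain ⟨⟨-, a1⟩, -, a2, a3⟩ := hz
    have eu : d.u0 z = d.l z.1 + d.l z.2 := rfl
    have a4 : k * bq q ≤ 4 * bq q := mul_le_mul_of_nonneg_right k4 hb.le
    exact eqAt hn hq ht h (in_UR hq hw (by linarith) (by linarith) (by linarith))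
  · right
    have z1 : ps q (b2 q) k d.l m₂ T z = 0 := by
      by_contra hne
      exact hz (ps_supp hc hb hne)
    have z2 : c0f q (b2 q) d.l m₂ T z = 0 := by
      by_contra hne
      exact hz (Rk_mono hb k0 (c0f_ts hc hb (p12 hq.gc.rad) (p2b hq.gc.rad)
        h.lev.sm.continuous hT.Ts.continuous (subset_tsupport _ hne)))
    refine ⟨z2, ?_, ?_⟩
    · simp [Qc, z2]
    · simp [Qc, z1]

end Vale.Agent.P088.R2.H230.T
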